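import Vale.Agent.P108.Bdl.B1

open MeasureTheory Filter Set Topology
open Vale.Agent.P108

theorem Vale.Agent.Results.P108.Structure.result :
    (∀ k, 0 < ent k ↔ 0 < volume {z | z ∈ Q ∧ 0 < lyap k z}) ∧
    (∀ k, Tendsto (fun n : ℕ => (∫ z in Q, Real.log ‖fderiv ℝ (F k)^[n] z‖) / n) atTop
      (𝓝 (ent k))) ∧
    (∀ k : ℝ, ∀ n : ℕ, 1 ≤ n → ent k ≤ (∫ z in Q, Real.log ‖fderiv ℝ (F k)^[n] z‖) / n) ∧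
    (∀ k : ℝ, 2 ≤ |k| → ∀ n : ℕ, 1 ≤ n →
      Real.log (Real.pi * |k|) - 40 * (√n * Real.log |k| / |k|)
        - 400 * (n * (Real.log |k|) ^ 2 / k ^ 2)
      ≤ (∫ z in Q, Real.log ‖fderiv ℝ (F k)^[n] z‖) / n) ∧
    (∀ k, 0 ≤ ent k ∧ ent k ≤ 2 * Real.arsinh (√(2 * Real.pi * |k|) / 2)) ∧
    UpperSemicontinuous ent ∧
    (∃ S : ℕ → Set ℝ, (∀ j, IsClosed (S j)) ∧ {k | 0 < ent k} = ⋃ j, S j) ∧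
    (¬ IsMeagre {k | 0 < ent k} →
      ∃ a b δ : ℝ, a < b ∧ 0 < δ ∧ ∀ k ∈ Ioo a b, δ ≤ ent k) ∧
    List.TFAE [
      0 < volume {k | 0 < ent k},
      ∃ (K : Set ℝ) (δ : ℝ), IsCompact K ∧ 0 < volume K ∧ 0 < δ ∧
        ∀ k ∈ K, ∀ n : ℕ, δ * n ≤ ∫ z in Q, Real.log ‖fderiv ℝ (F k)^[n] z‖,
      ∃ R δ : ℝ, 0 < δ ∧ ∃ᶠ n : ℕ in atTop,
        ENNReal.ofReal δ ≤ volume {p : ℝ × (ℝ × ℝ) |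
          |p.1| ≤ R ∧ p.2 ∈ Q ∧ Real.exp (δ * n) ≤ ‖fderiv ℝ (F p.1)^[n] p.2‖},
      ∃ R δ : ℝ, 0 < δ ∧ ∃ᶠ n : ℕ in atTop,
        ENNReal.ofReal δ ≤ volume {p : ℝ × (ℝ × ℝ) |
          |p.1| ≤ R ∧ p.2 ∈ Q ∧
            Real.exp (δ * n) ≤ |deriv (fun κ => ((F κ)^[n] p.2).1) p.1|}] :=
  ⟨Vale.Agent.P108.main.1, Vale.Agent.P108.FT.main.1, Vale.Agent.P108.FT.main.2.1,
    Vale.Agent.P108.FT.main.2.2, Vale.Agent.P108.main.2.2⟩
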